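import Mathlib
import Crest.Agent.Lib.Thorp.Rank
import Crest.Agent.Lib.Thorp.HighLink
import Crest.Agent.Lib.Thorp.LevelOne
import Crest.Agent.Lib.Thorp.TopLevel

set_option autoImplicit false

/-!
The exact level norms `sigma k r` of `T = opT (bA k)` and the theorems about them in one place:
multiplicity (`sigma_pow_mul_choose_le`), high levels (`sigma_high`), level one (`sigma_one`).
-/

namespace Crest.Agent.Lib.Thorp

open Finset Equiv

section contraction

variable {V : Type} [Fintype V] [DecidableEq V]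

theorem nsq_opT_le_sigma {ι : Type} [Fintype ι] [DecidableEq ι] {a : RG (Perm V)} (ha : IsLaw a)
    (f : (ι → V) → ℝ) : nsq (opT a f) ≤ nsq f := by
  unfold nsq opT
  have h1 : ∀ y : ι → V, (∑ g, cf a g * f (fun i => g (y i))) ^ 2
      ≤ ∑ g, cf a g * (f (fun i => g (y i))) ^ 2 := by
    intro y
    have h := (even_two.convexOn_pow (𝕜 := ℝ)).map_sum_le (t := Finset.univ)
      (w := fun g => cf a g) (p := fun g => f (fun i => g (y i)))
      (fun g _ => ha.nonneg g) ha.sum_one (fun _ _ => Set.mem_univ _)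
    simpa [smul_eq_mul] using h
  calc ∑ y, (∑ g, cf a g * f (fun i => g (y i))) ^ 2
      ≤ ∑ y, ∑ g, cf a g * (f (fun i => g (y i))) ^ 2 := Finset.sum_le_sum fun y _ => h1 y
    _ = ∑ g : Perm V, cf a g * ∑ y : ι → V, (f (fun i => g (y i))) ^ 2 := by
        rw [Finset.sum_comm]
        simp only [Finset.mul_sum]
    _ = ∑ g : Perm V, cf a g * ∑ y : ι → V, f y ^ 2 := by
        apply Finset.sum_congr rfl
        intro g _
        congr 1
        exact Equiv.sum_comp (Equiv.arrowCongr (Equiv.refl ι) g) (fun y => f y ^ 2)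
    _ = ∑ y, f y ^ 2 := by rw [← Finset.sum_mul, ha.sum_one, one_mul]

theorem NormBd.mono_sigma {a : RG (Perm V)} {r : ℕ} {θ θ' : ℝ} (h : NormBd a r θ) (h0 : 0 ≤ θ)
    (hθ : θ ≤ θ') : NormBd a r θ' := by
  intro ι _ _ J f hJ hf
  refine le_trans (h ι J f hJ hf) ?_
  apply mul_le_mul_of_nonneg_right _ (Finset.sum_nonneg fun _ _ => sq_nonneg _)
  exact pow_le_pow_left₀ h0 hθ 2

theorem normBd_one_of_isLaw {a : RG (Perm V)} (ha : IsLaw a) (r : ℕ) : NormBd a r 1 := by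
  intro ι _ _ J f _ _
  rw [one_pow, one_mul]
  exact nsq_opT_le_sigma ha f

theorem fixDesc_nonneg_of_isLaw {a : RG (Perm V)} (ha : IsLaw a) (t : ℕ) : 0 ≤ fixDesc a t := by
  unfold fixDesc
  exact Finset.sum_nonneg fun g _ => mul_nonneg (ha.nonneg g) (by positivity)

end contraction

theorem isLaw_bA_all : ∀ k : ℕ, IsLaw (bA k)
  | 0 => by
      show IsLaw (1 : RG (Perm (Pos 0)))
      exact (isLaw_one : IsLaw (1 : RG (Perm (Pos 0))))
  | d + 1 => isLaw_bA d

/-- The exact norm of `T = opT (bA k)` on pure functions of `r` cards. -/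
noncomputable def sigma (k r : ℕ) : ℝ := sInf {θ : ℝ | 0 ≤ θ ∧ NormBd (bA k) r θ}

theorem sigma_set_nonempty (k r : ℕ) : {θ : ℝ | 0 ≤ θ ∧ NormBd (bA k) r θ}.Nonempty :=
  ⟨1, zero_le_one, normBd_one_of_isLaw (isLaw_bA_all k) r⟩

theorem sigma_nonneg (k r : ℕ) : 0 ≤ sigma k r :=
  Real.sInf_nonneg fun _ h => h.1

theorem sigma_le (k r : ℕ) {θ : ℝ} (h0 : 0 ≤ θ) (h : NormBd (bA k) r θ) : sigma k r ≤ θ :=
  csInf_le ⟨0, fun _ h => h.1⟩ ⟨h0, h⟩

theorem sigma_le_one (k r : ℕ) : sigma k r ≤ 1 :=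
  sigma_le k r zero_le_one (normBd_one_of_isLaw (isLaw_bA_all k) r)

/-- The infimum is attained. -/
theorem sigma_normBd (k r : ℕ) : NormBd (bA k) r (sigma k r) := by
  intro ι _ _ J f hJ hf
  have hn0 : (0 : ℝ) ≤ nsq f := Finset.sum_nonneg (fun _ _ => sq_nonneg _)
  rcases hn0.eq_or_lt with h0 | hpos
  · have h1 := normBd_one_of_isLaw (isLaw_bA_all k) r ι J f hJ hf
    rw [← h0] at h1 ⊢
    simpa using h1
  · have hT0 : 0 ≤ nsq (opT (bA k) f) := Finset.sum_nonneg fun _ _ => sq_nonneg _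
    have hle : Real.sqrt (nsq (opT (bA k) f) / nsq f) ≤ sigma k r := by
      apply le_csInf (sigma_set_nonempty k r)
      rintro θ ⟨h0, hθ⟩
      apply Real.sqrt_le_iff.mpr
      refine ⟨h0, ?_⟩
      rw [div_le_iff₀ hpos]
      exact hθ ι J f hJ hf
    have h2 : nsq (opT (bA k) f) / nsq f ≤ sigma k r ^ 2 := by
      have := Real.sq_sqrt (div_nonneg hT0 hpos.le)
      rw [← this]
      exact pow_le_pow_left₀ (Real.sqrt_nonneg _) hle 2
    rwa [div_le_iff₀ hpos] at h2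

theorem normBd_of_sigma_le {k r : ℕ} {θ : ℝ} (h : sigma k r ≤ θ) : NormBd (bA k) r θ :=
  (sigma_normBd k r).mono_sigma (sigma_nonneg k r) h

/-- Level one is killed. -/
theorem sigma_one (k : ℕ) : sigma k 1 = 0 :=
  le_antisymm (sigma_le k 1 le_rfl (NormBd_bA_one k)) (sigma_nonneg k 1)

/-- **Multiplicity.** With `K₁ = 2^(s+2)`. -/
theorem sigma_pow_mul_choose_le (k s t r : ℕ) (hrt : r ≤ t) (htn : t ≤ 2 ^ k) :
    sigma k r ^ (2 ^ (s + 2)) * (t.choose r : ℝ)
      ≤ fixDesc (bA k ^ (2 ^ (s + 2))) t * Rank.Den (2 ^ k) t r := by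
  have hcard : Fintype.card (Pos k) = 2 ^ k := card_Pos k
  have hC : (0 : ℝ) < (t.choose r : ℝ) := by exact_mod_cast Nat.choose_pos hrt
  have hF : 0 ≤ fixDesc (bA k ^ (2 ^ (s + 2))) t :=
    fixDesc_nonneg_of_isLaw ((isLaw_bA_all k).pow _) t
  have hD : 0 ≤ Rank.Den (2 ^ k) t r := by
    unfold Rank.Den
    positivity
  set X : ℝ := fixDesc (bA k ^ (2 ^ (s + 2))) t * Rank.Den (2 ^ k) t r / (t.choose r : ℝ) with hX
  have hX0 : 0 ≤ X := by positivity
  set K : ℕ := 2 ^ (s + 2) with hK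
  have hK0 : K ≠ 0 := by positivity
  set θ : ℝ := X ^ ((K : ℝ)⁻¹) with hθ
  have hθ0 : 0 ≤ θ := Real.rpow_nonneg hX0 _
  have hθK : θ ^ K = X := by
    rw [hθ, Real.rpow_inv_natCast_pow hX0 hK0]
  have hN : NormBd (bA k) r θ := by
    apply Rank.normBd_of_fixDesc (rev_bA k) hrt (by rw [hcard]; exact htn) hθ0 (s := s)
    rw [hcard, ← hK, hθK, hX]
    rw [div_mul_cancel₀ _ hC.ne']
  have hle := sigma_le k r hθ0 hN
  calc sigma k r ^ K * (t.choose r : ℝ) ≤ θ ^ K * (t.choose r : ℝ) :=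
        mul_le_mul_of_nonneg_right (pow_le_pow_left₀ (sigma_nonneg k r) hle K) hC.le
    _ = fixDesc (bA k ^ K) t * Rank.Den (2 ^ k) t r := by
        rw [hθK, hX, div_mul_cancel₀ _ hC.ne']

/-- **High levels**: `σ(k+j, r) ≤ θ^(2^j)`, if `σ(k, r') ≤ θ` for all `r' ≥ b`, as soon as
`r ≥ b + n' - n`. -/
theorem sigma_high {k b : ℕ} {θ : ℝ} (h0 : 0 ≤ θ) (h : ∀ r, b ≤ r → sigma k r ≤ θ) (j r : ℕ)
    (hr : b + (2 ^ (k + j) - 2 ^ k) ≤ r) : sigma (k + j) r ≤ θ ^ (2 ^ j) :=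
  sigma_le _ _ (by positivity) (NormBd_high (fun r hr => normBd_of_sigma_le (h r hr)) j r hr)

/-- There are no pure functions of more than `n` cards. -/
theorem sigma_of_lt (k r : ℕ) (hr : 2 ^ k < r) : sigma k r = 0 := by
  apply le_antisymm _ (sigma_nonneg k r)
  apply sigma_le k r le_rfl
  intro ι _ _ J f hJ hf
  have hf0 : ∀ x, f x = 0 := by
    intro x
    apply hf.toIsW.supp
    intro hinj
    have h1 : J.card ≤ (Finset.univ : Finset (Pos k)).card :=
      Finset.card_le_card_of_injOn x (fun _ _ => Finset.mem_univ _) hinj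
    rw [Finset.card_univ, card_Pos, hJ] at h1
    omega
  have h0 : opT (bA k) f = fun _ => 0 := by
    funext y
    simp [opT, hf0]
  rw [h0]
  simp [nsq, hf0]

/-- **The assembly form of the whole reduction.** It suffices to bound the sum of the level norms
against any upper bound `F` of the traces. -/
theorem tendsto_tv_of_sigma (K₀ s : ℕ) (hK : K₀ + 2 ^ (s + 1) = 1600) (F : ℕ → ℕ → ℝ)
    (hF : ∀ k t, fixDesc ((bA k) ^ (2 ^ (s + 1))) t ≤ F k t)
    (hlim : Filter.Tendsto (fun k : ℕ => ∑ r ∈ Finset.Icc 1 (2 ^ k), sigma k r ^ K₀ *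
        min (F k (2 ^ k)) (((2 ^ k).choose r : ℝ) * F k r)) Filter.atTop (nhds 0)) :
    Filter.Tendsto (fun d : ℕ => Crest.ProbabilityR.Shuffle.tvFromUniform (2 ^ d) (1600 * (d + 1))) Filter.atTop (nhds 0) := by
  apply tendsto_tv_of_sum sigma sigma_nonneg (fun k r _ => sigma_normBd k r) K₀ s hK
  refine squeeze_zero (fun k => ?_) (fun k => ?_) hlim
  · apply Finset.sum_nonneg
    intro r _
    apply mul_nonneg (pow_nonneg (sigma_nonneg k r) _)
    apply le_min
    · exact fixDesc_nonneg_of_isLaw ((isLaw_bA_all k).pow _) _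
    · exact mul_nonneg (by positivity) (fixDesc_nonneg_of_isLaw ((isLaw_bA_all k).pow _) _)
  · apply Finset.sum_le_sum
    intro r _
    apply mul_le_mul_of_nonneg_left _ (pow_nonneg (sigma_nonneg k r) _)
    apply min_le_min (hF k _)
    exact mul_le_mul_of_nonneg_left (hF k r) (by positivity)

end Crest.Agent.Lib.Thorp
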