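import Mathlib
import Crest.Agent.Lib.Thorp.JensenChain
import Crest.Agent.Lib.Thorp.LevelFinal
import Crest.Agent.Lib.Thorp.Coins
import Crest.Agent.Lib.Thorp.NegCorr

set_option autoImplicit false

/-!
# The warm start wrapper (S0222)

`injK a t` is the kernel of a law `a` on injective `t`-tuples; its trace is `fixDesc a t`.  The Jensen chain
turns a Rényi bound on the columns into a bound for `fixDesc (a ^ (2 * m)) t`, and the `P²` step (Jensen)
reduces the kernel of `b * b` to an average of the columns of `b`.  On the tower, together with the power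
mean form of the Kraft inequality, `power_mean_tower`, everything is reduced to the expectation
`EE k (NN k S i o ^ δ)`.
-/

namespace Crest.Agent.Lib.Thorp

open Finset Equiv Matrix

section generic

variable {V : Type} [Fintype V] [DecidableEq V]

/-- injective `t`-tuples -/
abbrev Inj (V : Type) (t : ℕ) := {x : Fin t → V // Function.Injective x}

/-- the kernel of a law on injective tuples -/
noncomputable def injK (a : RG (Perm V)) (t : ℕ) : Matrix (Inj V t) (Inj V t) ℝ :=
  Matrix.of fun x z => ∑ g, cf a g * (if ∀ j, g (x.1 j) = z.1 j then (1 : ℝ) else 0)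

theorem injK_apply (a : RG (Perm V)) (t : ℕ) (x z : Inj V t) :
    injK a t x z = ∑ g, cf a g * (if ∀ j, g (x.1 j) = z.1 j then (1 : ℝ) else 0) := rfl

/-- the tuple `g ∘ x` -/
def injMap (g : Perm V) {t : ℕ} (x : Inj V t) : Inj V t :=
  ⟨fun j => g (x.1 j), fun _ _ h => x.2 (g.injective h)⟩

theorem ite_forall_eq_iff (g : Perm V) {t : ℕ} (x z : Inj V t) :
    (∀ j, g (x.1 j) = z.1 j) ↔ injMap g x = z := by
  constructor
  · intro h
    apply Subtype.ext
    funext j
    exact h j
  · intro h j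
    rw [← h]
    rfl

theorem sum_injK_mul (a : RG (Perm V)) (t : ℕ) (x : Inj V t) (F : Inj V t → ℝ) :
    ∑ w, injK a t x w * F w = ∑ g, cf a g * F (injMap g x) := by
  simp only [injK_apply, Finset.sum_mul]
  rw [Finset.sum_comm]
  apply Finset.sum_congr rfl
  intro g _
  rw [Finset.sum_eq_single (injMap g x)]
  · have hh : ∀ j, g (x.1 j) = (injMap g x).1 j := fun j => rfl
    rw [if_pos hh]
    ring
  · intro w _ hw
    rw [if_neg (fun h => hw ((ite_forall_eq_iff g x w).mp h).symm)]
    ring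
  · simp

theorem injK_one (t : ℕ) : injK (1 : RG (Perm V)) t = 1 := by
  ext x z
  rw [injK_apply, Matrix.one_apply]
  simp only [cf_one]
  rw [Finset.sum_eq_single (1 : Perm V)]
  · simp only [if_true, one_mul, Equiv.Perm.coe_one, id_eq]
    by_cases h : x = z
    · subst h
      simp
    · rw [if_neg h, if_neg]
      intro h'
      exact h (Subtype.ext (funext h'))
  · intro g _ hg
    rw [if_neg hg, zero_mul]
  · simp

/-- The kernel is an antihomomorphism. -/
theorem injK_mul (a b : RG (Perm V)) (t : ℕ) : injK (a * b) t = injK b t * injK a t := by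
  ext x z
  rw [Matrix.mul_apply, sum_injK_mul b t x (fun w => injK a t w z), injK_apply]
  simp only [injK_apply]
  have h1 : ∀ g, cf (a * b) g = ∑ h, cf b h * cf a (g * h⁻¹) := by
    intro g
    rw [cf_mul]
    apply Fintype.sum_equiv ((Equiv.inv (Perm V)).trans (Equiv.mulRight g))
    intro h
    simp only [Equiv.trans_apply, Equiv.inv_apply, Equiv.coe_mulRight, _root_.mul_inv_rev, inv_inv,
      mul_inv_cancel_left]
    rw [mul_comm]
  simp only [h1, Finset.sum_mul]
  rw [Finset.sum_comm]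
  apply Finset.sum_congr rfl
  intro h _
  rw [Finset.mul_sum]
  apply Fintype.sum_equiv (Equiv.mulRight h⁻¹)
  intro g
  simp only [Equiv.coe_mulRight]
  have e : (∀ j, g (x.1 j) = z.1 j) ↔ ∀ j, (g * h⁻¹) ((injMap h x).1 j) = z.1 j := by
    simp [injMap]
  by_cases hc : ∀ j, g (x.1 j) = z.1 j
  · rw [if_pos hc, if_pos (e.mp hc)]
    ring
  · rw [if_neg hc, if_neg (fun h' => hc (e.mpr h'))]
    ring

theorem injK_pow (a : RG (Perm V)) (t n : ℕ) : injK (a ^ n) t = (injK a t) ^ n := by
  induction n with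
  | zero => simp [injK_one]
  | succ n ih => rw [pow_succ, injK_mul, ih, pow_succ']

theorem injK_nonneg {a : RG (Perm V)} (ha : IsLaw a) (t : ℕ) (x z : Inj V t) : 0 ≤ injK a t x z := by
  rw [injK_apply]
  apply Finset.sum_nonneg
  intro g _
  apply mul_nonneg (ha.nonneg g)
  split_ifs <;> norm_num

theorem injK_row {a : RG (Perm V)} (ha : IsLaw a) (t : ℕ) (x : Inj V t) :
    ∑ z, injK a t x z = 1 := by
  have h := sum_injK_mul a t x (fun _ => 1)
  simp only [mul_one] at h
  rw [h, ha.sum_one]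

theorem injK_transpose (a : RG (Perm V)) (t : ℕ) : (injK a t)ᵀ = injK (rev a) t := by
  ext x z
  rw [Matrix.transpose_apply, injK_apply, injK_apply]
  simp only [cf_rev]
  apply Fintype.sum_equiv (Equiv.inv (Perm V))
  intro g
  simp only [Equiv.inv_apply, inv_inv]
  congr 1
  have e : (∀ j, g (z.1 j) = x.1 j) ↔ ∀ j, g⁻¹ (x.1 j) = z.1 j := by
    constructor
    · intro h j
      rw [← h j]
      simp
    · intro h j
      rw [← h j]
      simp
  by_cases hc : ∀ j, g (z.1 j) = x.1 j
  · rw [if_pos hc, if_pos (e.mp hc)]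
  · rw [if_neg hc, if_neg (fun h' => hc (e.mpr h'))]

/-- number of injective tuples -/
theorem card_Inj (t : ℕ) : Fintype.card (Inj V t) = (Fintype.card V).descFactorial t := by
  have e : Inj V t ≃ (Fin t ↪ V) :=
    { toFun := fun x => ⟨x.1, x.2⟩
      invFun := fun f => ⟨f, f.injective⟩
      left_inv := fun _ => rfl
      right_inv := fun _ => rfl }
  rw [Fintype.card_congr e, Fintype.card_embedding_eq, Fintype.card_fin]

/-- The trace of the kernel. -/
theorem trace_injK (a : RG (Perm V)) (t : ℕ) : trace (injK a t) = fixDesc a t := by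
  unfold fixDesc
  simp only [Matrix.trace, Matrix.diag_apply, injK_apply]
  rw [Finset.sum_comm]
  apply Finset.sum_congr rfl
  intro g _
  rw [← Finset.mul_sum]
  congr 1
  -- counting tuples of fixed points
  let Fx := {v : V // g v = v}
  have hcardF : Fintype.card Fx = fixCount g := by
    exact Fintype.card_subtype _
  let e : {x : Inj V t // ∀ j, g (x.1 j) = x.1 j} ≃ (Fin t ↪ Fx) :=
    { toFun := fun x => ⟨fun j => ⟨x.1.1 j, x.2 j⟩, fun i j h => x.1.2 (Subtype.ext_iff.mp h)⟩
      invFun := fun f => ⟨⟨fun j => (f j).1, fun i j h => f.injective (Subtype.ext h)⟩, fun j => (f j).2⟩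
      left_inv := fun _ => rfl
      right_inv := fun _ => rfl }
  have h1 : (Finset.univ.filter (fun x : Inj V t => ∀ j, g (x.1 j) = x.1 j)).card
      = (fixCount g).descFactorial t := by
    rw [← Fintype.card_subtype, Fintype.card_congr e, Fintype.card_embedding_eq, hcardF,
      Fintype.card_fin]
  rw [← h1, Finset.card_filter]
  push_cast
  rfl

/-- The chain in the language of laws. -/
theorem fixDesc_pow_le {a : RG (Perm V)} (ha : IsLaw a) (hrev : rev a = a) (t : ℕ) {δ D : ℝ}
    (hδ : 0 < δ) {m : ℕ} (hm : (1 + δ) ^ m = 2)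
    (hD : ∀ z : Inj V t, (((Fintype.card V).descFactorial t : ℕ) : ℝ) ^ δ *
      ∑ x, (injK a t x z) ^ (1 + δ) ≤ Real.exp (δ * D)) :
    fixDesc (a ^ (2 * m)) t ≤ Real.exp D := by
  rw [← trace_injK, injK_pow]
  refine chain_trace (injK a t) ?_ (injK_nonneg ha t) (injK_row ha t) hδ hm ?_
  · rw [injK_transpose, hrev]
  · intro z
    rw [card_Inj]
    exact hD z

/-- Columns can be replaced by rows for a symmetric law. -/
theorem injK_symm {a : RG (Perm V)} (hrev : rev a = a) (t : ℕ) (x z : Inj V t) :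
    injK a t x z = injK a t z x := by
  have h := injK_transpose a t
  rw [hrev] at h
  conv_rhs => rw [← h]
  rfl

/-- The `P²` step (Jensen). -/
theorem sum_injK_sq_le {b : RG (Perm V)} (hb : IsLaw b) (t : ℕ) {δ : ℝ} (hδ : 0 ≤ δ) (x : Inj V t) :
    ∑ z, (injK (b * b) t x z) ^ (1 + δ)
      ≤ ∑ g, cf b g * ∑ z, (injK b t (injMap g x) z) ^ (1 + δ) := by
  rw [← sum_injK_mul b t x (fun w => ∑ z, (injK b t w z) ^ (1 + δ))]
  simp only [Finset.mul_sum]
  rw [Finset.sum_comm]
  apply Finset.sum_le_sum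
  intro z _
  rw [injK_mul, Matrix.mul_apply]
  exact Real.rpow_arith_mean_le_arith_mean_rpow Finset.univ (fun w => injK b t x w)
    (fun w => injK b t w z) (fun w _ => injK_nonneg hb t x w) (injK_row hb t x)
    (fun w _ => injK_nonneg hb t w z) (by linarith)

theorem isLaw_mul_self {b : RG (Perm V)} (hb : IsLaw b) : IsLaw (b * b) := hb.mul hb

theorem rev_mul_self {b : RG (Perm V)} (hrev : rev b = b) : rev (b * b) = b * b := by
  rw [rev_mul, hrev]

end generic

section tower

open Crest.Agent.Lib.Thorp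

theorem isLaw_bA' (k : ℕ) : IsLaw (bA k) := (isStirring_bA k).isLaw

theorem rev_bA' (k : ℕ) : rev (bA k) = bA k := by
  rw [bA_eq, rev_mul, rev_rev]

/-- the sum over injective targets is at most the sum over all targets -/
theorem sum_injK_rpow_le (k t : ℕ) (x : Inj (Pos k) t) {δ : ℝ} (hδ : 0 < δ) :
    ∑ z : Inj (Pos k) t, (injK (bA k) t x z) ^ (1 + δ)
      ≤ ∑ Z : Fin t → Pos k, (∑ g : Perm (Pos k), cf (bA k) g *
        (if ∀ j, g (x.1 j) = Z j then (1 : ℝ) else 0)) ^ (1 + δ) := by
  have h1 : ∀ Z : Fin t → Pos k, 0 ≤ (∑ g : Perm (Pos k), cf (bA k) g *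
        (if ∀ j, g (x.1 j) = Z j then (1 : ℝ) else 0)) ^ (1 + δ) := by
    intro Z
    apply Real.rpow_nonneg
    apply Finset.sum_nonneg
    intro g _
    apply mul_nonneg ((isLaw_bA' k).nonneg g)
    split_ifs <;> norm_num
  have h2 := Finset.sum_le_sum_of_subset_of_nonneg
    (s := (Finset.univ : Finset (Inj (Pos k) t)).map (Function.Embedding.subtype _))
    (t := (Finset.univ : Finset (Fin t → Pos k))) (Finset.subset_univ _) (fun Z _ _ => h1 Z)
  rw [Finset.sum_map] at h2
  exact h2

/-- the tower Kraft bound on the columns -/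
theorem sum_injK_le_EE (k t : ℕ) (x : Inj (Pos k) t) {δ : ℝ} (hδ : 0 < δ) :
    ∑ z : Inj (Pos k) t, (injK (bA k) t x z) ^ (1 + δ)
      ≤ ((((2 : ℝ) ^ k) ^ t)⁻¹) ^ δ * EE k (fun i o => NN k (univ.image x.1) i o ^ δ) := by
  refine (sum_injK_rpow_le k t x hδ).trans ?_
  have h := power_mean_tower k x.1 x.2 δ hδ
  rw [Fintype.card_fin] at h
  refine le_trans (le_of_eq ?_) h
  congr!

/-- The warm start at a tuple-free level: `fixDesc (bA k ^ (2 m)) t ≤ exp D`. -/
theorem fixDesc_bA_le (k t : ℕ) {δ D : ℝ} (hδ : 0 < δ) {m : ℕ} (hm : (1 + δ) ^ m = 2)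
    (hD : ∀ S : Finset (Pos k), S.card = t →
      (((Fintype.card (Pos k)).descFactorial t : ℕ) : ℝ) ^ δ * (((((2 : ℝ) ^ k) ^ t)⁻¹) ^ δ *
        EE k (fun i o => NN k S i o ^ δ)) ≤ Real.exp (δ * D)) :
    fixDesc ((bA k) ^ (2 * m)) t ≤ Real.exp D := by
  refine fixDesc_pow_le (isLaw_bA' k) (rev_bA' k) t hδ hm ?_
  intro z
  have hsym : ∀ x, injK (bA k) t x z = injK (bA k) t z x := fun x => injK_symm (rev_bA' k) t x z
  simp only [hsym]
  have hcard : (univ.image z.1).card = t := by
    rw [Finset.card_image_of_injective _ z.2]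
    simp
  refine le_trans ?_ (hD _ hcard)
  apply mul_le_mul_of_nonneg_left (sum_injK_le_EE k t z hδ)
  exact Real.rpow_nonneg (Nat.cast_nonneg _) _

/-- The `P²` form: `fixDesc (bA k ^ (4 m)) t ≤ exp D` from an average over the start set. -/
theorem fixDesc_bA_sq_le (k t : ℕ) {δ D : ℝ} (hδ : 0 < δ) {m : ℕ} (hm : (1 + δ) ^ m = 2)
    (hD : ∀ S : Finset (Pos k), S.card = t →
      (((Fintype.card (Pos k)).descFactorial t : ℕ) : ℝ) ^ δ * (((((2 : ℝ) ^ k) ^ t)⁻¹) ^ δ *
        ∑ g, cf (bA k) g * EE k (fun i o => NN k (S.image g) i o ^ δ)) ≤ Real.exp (δ * D)) :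
    fixDesc ((bA k) ^ (4 * m)) t ≤ Real.exp D := by
  have hlaw := isLaw_bA' k
  have hrev := rev_bA' k
  have e : (bA k) ^ (4 * m) = (bA k * bA k) ^ (2 * m) := by
    rw [← sq, ← pow_mul]
    congr 1
    ring
  rw [e]
  refine fixDesc_pow_le (isLaw_mul_self hlaw) (rev_mul_self hrev) t hδ hm ?_
  intro z
  have hsym : ∀ x, injK (bA k * bA k) t x z = injK (bA k * bA k) t z x :=
    fun x => injK_symm (rev_mul_self hrev) t x z
  simp only [hsym]
  have hcard : (univ.image z.1).card = t := by
    rw [Finset.card_image_of_injective _ z.2]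
    simp
  refine le_trans ?_ (hD _ hcard)
  apply mul_le_mul_of_nonneg_left _ (Real.rpow_nonneg (Nat.cast_nonneg _) _)
  refine (sum_injK_sq_le hlaw t hδ.le z).trans ?_
  have h1 : ∀ g : Perm (Pos k), ∑ w, (injK (bA k) t (injMap g z) w) ^ (1 + δ)
      ≤ ((((2 : ℝ) ^ k) ^ t)⁻¹) ^ δ *
        EE k (fun i o => NN k ((univ.image z.1).image g) i o ^ δ) := by
    intro g
    refine (sum_injK_le_EE k t (injMap g z) hδ).trans (le_of_eq ?_)
    have : (univ.image (injMap g z).1) = (univ.image z.1).image g := by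
      rw [Finset.image_image]
      rfl
    rw [this]
  calc ∑ g, cf (bA k) g * ∑ w, (injK (bA k) t (injMap g z) w) ^ (1 + δ)
      ≤ ∑ g, cf (bA k) g * (((((2 : ℝ) ^ k) ^ t)⁻¹) ^ δ *
        EE k (fun i o => NN k ((univ.image z.1).image g) i o ^ δ)) :=
        Finset.sum_le_sum fun g _ => mul_le_mul_of_nonneg_left (h1 g) (hlaw.nonneg g)
    _ = _ := by
        rw [Finset.mul_sum]
        apply Finset.sum_congr rfl
        intro g _
        ring

end tower

end Crest.Agent.Lib.Thorp
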